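import Vale.Agent.H27.DFT.Main

/-!
# P344: lower bounds of order `n log n` with many unrestricted coefficients

A determinant argument in the style of Morgenstern, restricted to the common kernel of the
unrestricted gates and transported by a field embedding `ℂ → ℂ`.
-/

open Vale.Agent.H27.DFT

theorem Vale.Agent.Results.P344.FreeGates.result :
    (∀ n : ℕ, 0 < n → ∀ gs : List Gate, ComputesDFT n gs → ∀ σ : ℂ →+* ℂ,
      ∀ K : Finset (Fin gs.length), K.card ≤ n →
        ((n : ℝ) - K.card) / 2 * Real.logb 2 n - n / 2 ≤ ∑ p ∈ Kᶜ, (gs.get p).weight σ) ∧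
    (∀ ε C : ℝ, 0 < ε → ∃ c : ℝ, 0 < c ∧ ∃ N : ℕ, ∀ n : ℕ, N ≤ n →
      ∀ gs : List Gate, ComputesDFT n gs → ∀ σ : ℂ →+* ℂ,
        (Set.ncard {p : Fin gs.length | (gs.get p).Big σ C} : ℝ) ≤ (1 - ε) * n →
        c * (n * Real.logb 2 n) ≤ gs.length) :=
  ⟨fun _ hn _ h σ K hK => main_log hn h σ K hK, fun ε C hε => asymptotic ε C hε⟩
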